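import Vale.Agent.P352X.R.BB.Base
import Vale.Agent.P352X.R.CONK.Kp
import Vale.Agent.P352X.R.CONK.Tri

/-!
# P352X, row BP: transverse wedges and commutation with far parts of the plane
-/

set_option linter.all false

open MeasureTheory Filter Topology
open scoped SchwartzMap ComplexConjugate ContDiff

namespace Vale.Agent.P352X.BPa

open Vale.Agent.P352 Vale.Agent.P352.GF Vale.Agent.P352.BW Vale.Agent.P352.H246
open Vale.Agent.P352.H496 Vale.Agent.P352.H755
open Vale.Agent.P132 (jconj)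
open UniformSpace (Completion)

noncomputable section

/-! ### geometry -/

def nv (w : R2) : V := pt (d2 w w / 2) 1 w

lemma md_nv (w : R2) (z : V) : mdot (nv w) z = al z + d2 w w / 2 * be z - d2 w (tx z) := by
  simp only [mdot_null, nv, al_pt, be_pt, tx_pt]
  ring

lemma null_nv (w : R2) : IsNull (nv w) := ⟨by rw [md_nv]; simp [nv], by
  rw [time_eq (nv w)]
  have := d2_nonneg w
  simp only [nv, al_pt, be_pt]
  linarith⟩

lemma md_nvv {w : R2} (h : w ≠ 0) : 0 < mdot (nv w) (nv (-w)) := by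
  have := lt_of_le_of_ne (d2_nonneg w) fun k => h ((d2_eq_zero w).1 k.symm)
  rw [md_nv]
  simp only [nv, al_pt, be_pt, tx_pt, d2_neg, d2_neg_l]
  linarith

/-- transverse wedges -/
def Wt (w p : R2) : Set V := Wdg (nv w) (nv (-w)) (tv p)

lemma mem_Wt {w p : R2} {z : V} :
    z ∈ Wt w p ↔ |al z + d2 w w / 2 * be z| < d2 w (tx z) - d2 w p := by
  change _ ∧ _ ↔ _
  simp only [md_nv, al_sub, be_sub, tx_sub, al_tv, be_tv, tx_tv, d2_neg, d2_neg_l, d2_sub, abs_lt,
    neg_neg, sub_zero]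
  constructor <;> rintro ⟨a, b⟩ <;> constructor <;> linarith

lemma jr_mem {w p : R2} {z : V} : jr z ∈ Wt w p ↔ z ∈ Wt w p := by
  rw [mem_Wt, mem_Wt, ← abs_neg, al_jr, be_jr, tx_jr]
  congr! 2
  ring

lemma jr_Wt (w p : R2) : jr '' Wt w p = Wt w p :=
  Set.ext fun z => ⟨fun ⟨_, a, b⟩ => b ▸ jr_mem.2 a, fun h => ⟨jr z, jr_mem.2 h, jr_jr z⟩⟩

def Bx (R : ℝ) : Set V := {z | |al z| ≤ R ∧ |be z| ≤ R ∧ d2 (tx z) (tx z) ≤ R ^ 2}

def Fr (R : ℝ) : Set V :=
  {z | |be z| ≤ R ∧ 16 * R * |al z| < d2 (tx z) (tx z) ∧ 24 * R ^ 2 < d2 (tx z) (tx z)}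

lemma est {R N a b : ℝ} (hR : 0 < R) (hN : 0 ≤ N) (hb : |b| ≤ R) :
    |a + (4 * R)⁻¹ * ((4 * R)⁻¹ * N) / 2 * b| ≤ |a| + N / (32 * R) := by
  refine (abs_add_le _ _).trans (add_le_add le_rfl ?_)
  rw [abs_mul, abs_of_nonneg (by positivity)]
  refine (mul_le_mul_of_nonneg_left hb (by positivity)).trans_eq ?_
  field_simp
  ring

lemma sep {R : ℝ} (hR : 0 < R) {z : V} (hz : z ∈ Fr R) :
    ∃ w p, w ≠ 0 ∧ z ∈ Wt w p ∧ Bx R ⊆ Wt (-w) p := by
  obtain ⟨h1, h2, h3⟩ := hz
  set N := d2 (tx z) (tx z) with hN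
  have N0 : 0 < N := lt_trans (by positivity) h3
  refine ⟨(4 * R)⁻¹ • tx z, (1 / 2 : ℝ) • tx z, fun k => ?_, mem_Wt.2 ?_, fun y hy => mem_Wt.2 ?_⟩
  · rw [smul_eq_zero_iff_right (by positivity)] at k
    simp [hN, k] at N0
  · simp only [d2_smul, d2_smul_l, ← hN]
    refine (est hR N0.le h1).trans_lt ?_
    have : |al z| < N / (16 * R) := by rwa [lt_div_iff₀' (by positivity)]
    have e : (4 * R)⁻¹ * N - 1 / 2 * ((4 * R)⁻¹ * N) = N / (16 * R) + N / (32 * R) + N / (32 * R) := by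
      field_simp
      ring
    have : 0 < N / (32 * R) := by positivity
    linarith
  · simp only [d2_smul, d2_smul_l, d2_neg, d2_neg_l, mul_neg, neg_neg, ← hN]
    refine (est hR N0.le hy.2.1).trans_lt ?_
    have a1 : d2 (tx z) (tx y) ≤ N / 8 + 2 * R ^ 2 := by
      have := d2_nonneg (tx z - (4 : ℝ) • tx y)
      simp only [d2_sub, d2_sub_l, d2_smul, d2_smul_l, d2_comm (tx y) (tx z), ← hN] at this
      linarith [hy.2.2]
    have a2 : (4 * R)⁻¹ * d2 (tx z) (tx y) ≤ N / (32 * R) + R / 2 :=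
      (mul_le_mul_of_nonneg_left a1 (by positivity)).trans_eq (by field_simp; ring)
    have a3 : 3 * R / 2 < N / (16 * R) := by
      rw [lt_div_iff₀' (by positivity)]
      linarith
    have e : 1 / 2 * ((4 * R)⁻¹ * N) = N / (16 * R) + N / (32 * R) + N / (32 * R) := by
      field_simp
      ring
    linarith [hy.1]

lemma dc_shift {y z : V} {r : ℝ} (h : z ∈ dc y r) : z - y ∈ dc 0 r := by
  refine ⟨?_, ?_⟩
  · convert h.1 using 1
    abel
  · convert h.2 using 1
    abel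

/-- small double cones -/
lemma ex_dc {O : Set V} (hO : IsOpen O) {y : V} (hy : y ∈ O) :
    ∃ r, 0 < r ∧ dc y r ∈ 𝓝 y ∧ dc y r ⊆ O := by
  obtain ⟨e, he, h⟩ := Metric.isOpen_iff.1 hO y hy
  have k : bas o (e / 4) ∈ Fc := ⟨by
    change 0 < GF.mdot _ _
    rw [mdot_eq]
    simp [bas, o]
    positivity, by simpa [bas] using he⟩
  refine ⟨e / 4, by positivity, IsOpen.mem_nhds ((isOpen_Fc.preimage (by fun_prop)).inter
    (isOpen_Fc.preimage (by fun_prop))) ⟨by simpa using k, by simpa using k⟩, fun z hz => h ?_⟩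
  have := CK.Kp.norm_dc (dc_shift hz)
  rw [norm_zero, abs_of_pos (by positivity)] at this
  rw [mem_ball_iff_norm]
  linarith

lemma dc_Bx {y : V} {r R : ℝ} (h : 2 * (‖y‖ + 3 * |r|) ≤ R) : dc y r ⊆ Bx R := fun z hz => by
  have a := CK.Kp.norm_dc hz
  have b := norm_nonneg z
  refine ⟨by linarith [abs_al_le z], by linarith [abs_be_le z], (d2_le_norm _).trans ?_⟩
  have := norm_tx_le z
  nlinarith [norm_nonneg (tx z)]

/-! ### commutation -/

variable {D : Type*} [NormedAddCommGroup D] [InnerProductSpace ℂ D] {c : Ctx D}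
  {X Y Z : Completion D →L[ℂ] Completion D} {R : ℝ} {w w' v v' : Completion D} {O : Set V}

variable (c) in
/-- localised in all transverse wedges that contain the box -/
def Loc (R : ℝ) (Z : Completion D →L[ℂ] Completion D) : Prop :=
  ∀ w p, w ≠ 0 → Bx R ⊆ Wt w p → Z ∈ c.N (Wt w p)

lemma Loc.of (hX : X ∈ c.N O) (h : O ⊆ Bx R) : Loc c R X :=
  fun _ _ _ k => c.N_mono (h.trans k) X hX

lemma Loc.mul (h : Loc c R X) (h' : Loc c R Y) : Loc c R (X * Y) :=
  fun w p a b => mul_mem (h w p a b) (h' w p a b)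

lemma Loc.J (j : JC c) (h : Loc c R X) : Loc c R (jconj c.J X) := fun w p a b =>
  jr_Wt w p ▸ j.alg _ _ _ (null_nv _) (null_nv _) (md_nvv a) X (h w p a b)

variable (c) in
/-- `T_aa` commutes in the region `O` with the operator that the pair stands for -/
def Com (w w' : Completion D) (O : Set V) : Prop :=
  ∀ h, In O h → inner ℂ (c.Tv (hk va va (bar h))) w = inner ℂ w' (c.Tv (hk va va h))

lemma Com.sub (h : Com c w w' O) (h' : Com c v v' O) : Com c (w - v) (w' - v') O := fun f hf => by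
  rw [inner_sub_left, inner_sub_right, h f hf, h' f hf]

lemma Com.lim (h : ∀ ε > 0, ∃ v v', Com c v v' O ∧ ‖w - v‖ ≤ ε ∧ ‖w' - v'‖ ≤ ε) :
    Com c w w' O := fun f hf => by
  refine eq_of_sub_eq_zero (norm_le_zero_iff.1 (le_of_forall_pos_le_add fun η hη => ?_))
  set M := ‖c.Tv (hk va va (bar f))‖ + ‖c.Tv (hk va va f)‖ + 1 with hM
  have M0 : 0 < M := by positivity
  obtain ⟨v, v', a, b, d⟩ := h (η / M) (by positivity)
  have e : inner ℂ (c.Tv (hk va va (bar f))) w - inner ℂ w' (c.Tv (hk va va f)) =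
      inner ℂ (c.Tv (hk va va (bar f))) (w - v) - inner ℂ (w' - v') (c.Tv (hk va va f)) := by
    rw [inner_sub_left, inner_sub_right, a f hf]
    ring
  rw [e, zero_add, ← div_mul_cancel₀ η M0.ne']
  refine (norm_sub_le _ _).trans ((add_le_add (norm_inner_le_norm _ _)
    (norm_inner_le_norm _ _)).trans ?_)
  have := div_pos hη M0
  nlinarith [mul_le_mul_of_nonneg_left b (norm_nonneg (c.Tv (hk va va (bar f)))),
    mul_le_mul_of_nonneg_left d (norm_nonneg (c.Tv (hk va va f)))]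

theorem Loc.com (g : GRP c) (j : JC c) (hR : 0 < R) (h : Loc c R Z) :
    Com c (Z c.Om) (star Z c.Om) (Fr R) := fun f hf => by
  refine Ap.in_ind (P := fun f => inner ℂ (c.Tv (hk va va (bar f))) (Z c.Om) =
    inner ℂ (star Z c.Om) (c.Tv (hk va va f))) ?_ (fun f f' a b d e => ?_) (fun z hz => ?_) hf
  · have : bar (fun _ => 0) = fun _ => 0 := funext fun _ => star_zero _
    rw [this, BX.Tv_zero, inner_zero_left, inner_zero_right]
  · have : bar (fun x => f x + f' x) = fun x => bar f x + bar f' x := funext fun _ => star_add _ _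
    rw [this, BX.Tv_add (Ap.test_bar a.1) (Ap.test_bar b.1), BX.Tv_add a.1 b.1, inner_add_left,
      inner_add_right, d, e]
  · obtain ⟨w, p, a, b, d⟩ := sep hR hz
    refine ⟨Wt w p, (wdg_open _ _ _).mem_nhds b, fun f hf => ?_⟩
    have k := h _ p (neg_ne_zero.2 a) d
    rw [Wt, neg_neg, ← j.dual _ _ _ (null_nv _) (null_nv _) (md_nvv a)] at k
    have := g.pr_Tv (Ap.in_hk va va (Ap.in_mono hf Set.inter_subset_left)) Z k
    rw [CK.bar_hk] at this
    exact this.symm

end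

end Vale.Agent.P352X.BPa
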