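import Vale.Agent.P352X.Main0

/-!
# P352X, row BP: corrected statement
-/

set_option linter.all false

open MeasureTheory Filter Topology

namespace Vale.Agent.P352X

open Vale.Agent.P352 Vale.Agent.P352.GF Vale.Agent.P352.BW Vale.Agent.P352.H246
open Vale.Agent.P352.H496 Vale.Agent.P352.H755
open UniformSpace (Completion)

variable {D : Type*} [NormedAddCommGroup D] [InnerProductSpace ℂ D] (c : Ctx D)

/-- row BP, with the translate of `X` smooth -/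
def BP2 : Prop := ∀ (u0 d0 a0 : ℝ) y1 r1 X f1 κ ρ (y : R2), 0 < d0 → 0 < r1 →
  dc y1 r1 ⊆ {z | be z < -u0 ∧ a0 + d0 < al z} → X ∈ c.N (dc y1 r1) →
  c.Good (Ut c.Q (-(a0 • va)) * X * Ut c.Q (a0 • va)) →
  In {z | u0 < be z ∧ al z < a0 - d0} f1 → Cut κ → Tst ρ → tsupport ρ ⊆ Set.Ioo (-u0) u0 →
  Tendsto (fun L => inner ℂ ((c.Tf (hk va va (pr (fun q => d2 (q.2 - y) (q.2 - y) * kL κ L q) ρ))
      (c.Thf (bar f1) c.Q.vac) : D) : Completion D) (X c.Om)) atTop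
    (𝓝 (∫ u, (ρ u : ℂ) * inner ℂ (c.Th (bar f1)) (gen (c.Ky (tv y + u • vb)) (X c.Om))))

end Vale.Agent.P352X
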